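import Vale.Agent.Lib.P021.Exponent
import Vale.Agent.Lib.P021V.ExactV

namespace Vale.Agent.Results.P021.PiExplicit

open Vale.Agent.P021

/-- The irrationality exponent `μ` of `π`, that is the supremum of all real `ν > 0` such that
`0 < |π - r| < q ^ (-ν)` for infinitely many rational numbers `r` with lowest-terms denominator
`q = r.den ≥ 2`, is a real number with `2 ≤ μ < 5.6`; and `|π - p / q| ≥ 1 / q ^ 5.6` for all
integers `p` and all sufficiently large `q`. -/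
theorem result :
    (∃ μ : ℝ, IsLUB {ν : ℝ | 0 < ν ∧ {r : ℚ | 2 ≤ r.den ∧ 0 < |Real.pi - r| ∧
        |Real.pi - r| < (r.den : ℝ) ^ (-ν)}.Infinite} μ ∧ 2 ≤ μ ∧ μ < 5.6) ∧
      ∃ Q : ℕ, ∀ p : ℤ, ∀ q : ℕ, Q ≤ q → 1 / (q : ℝ) ^ (5.6 : ℝ) ≤ |Real.pi - p / q| := by
  set S : Set ℝ := {ν : ℝ | 0 < ν ∧ {r : ℚ | 2 ≤ r.den ∧ 0 < |Real.pi - r| ∧
        |Real.pi - r| < (r.den : ℝ) ^ (-ν)}.Infinite} with hS
  have hub : ∀ ν ∈ S, ν ≤ 55997 / 10000 := by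
    intro ν hν
    have h1 : ν ∈ exponentSet Real.pi := mem_exponentSet_of_rat hν.1 hν.2
    have h2 : ((ν : ℝ) : EReal) ≤ irrationalityExponent Real.pi := le_sSup ⟨ν, h1, rfl⟩
    exact EReal.coe_le_coe_iff.1 (h2.trans irrationalityExponent_pi_le_V_exact)
  have h2 : (2 : ℝ) ∈ S := ⟨two_pos, two_mem_rat irrational_pi⟩
  have hbdd : BddAbove S := ⟨55997 / 10000, hub⟩
  refine ⟨⟨sSup S, isLUB_csSup ⟨2, h2⟩ hbdd, le_csSup hbdd h2, ?_⟩, ?_⟩
  · exact lt_of_le_of_lt (csSup_le ⟨2, h2⟩ hub) (by norm_num)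
  · refine explicit_of_finite irrational_pi (by norm_num) ?_
    by_contra h
    have h3 : (5.6 : ℝ) ∈ S := ⟨by norm_num, h⟩
    have h4 := hub _ h3
    norm_num at h4

end Vale.Agent.Results.P021.PiExplicit
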