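import Vale.Agent.Lib.P021.Exponent
import Vale.Agent.Lib.P021V.AssemblyV

namespace Vale.Agent.Results.P021.PiExponent56

open Vale.Agent.P021

/-- The irrationality exponent of `π` is at most `5.6`. -/
theorem result : irrationalityExponent Real.pi ≤ ((5.6 : ℝ) : EReal) := by
  have h := irrationalityExponent_pi_le_V
  have e : ((28 / 5 : ℝ)) = (5.6 : ℝ) := by norm_num
  rwa [e] at h

end Vale.Agent.Results.P021.PiExponent56
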