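import Vale.Agent.Lib.P021.Exponent
import Vale.Agent.Lib.P021.Final

namespace Vale.Agent.Results.P021.PiExponent605

open Vale.Agent.P021

/-- The irrationality exponent of `π` is at most `6.05`. -/
theorem result : irrationalityExponent Real.pi ≤ ((6.05 : ℝ) : EReal) := by
  have h := irrationalityExponent_pi_le
  have e : ((121 / 20 : ℝ)) = (6.05 : ℝ) := by norm_num
  rwa [e] at h

end Vale.Agent.Results.P021.PiExponent605
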